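import Vale.Agent.P201.Congr.Outer
import Vale.Agent.P201.Congr.Holomorph

/-!
Groups acting faithfully on a `p`-torsion-free, `p`-adically separated abelian group and trivially
modulo `p ^ e > 2` have group algebras without zero divisors in characteristic `p` and `0`; so do
congruence subgroups of automorphism groups and holomorphs of groups whose points are separated by
integral unitriangular representations, and congruence subgroups of outer automorphism groups of
free groups.
-/

namespace Vale.Agent.Results.P201.CongruenceAutomorphisms

universe u v w x y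

open Vale.Agent.P201.Congr.Holo (UTSep Triv NoZD CongrAction)

theorem result :
    ∀ (p e : ℕ), p.Prime → 2 < p ^ e → ∀ (K : Type u) [Field K], (CharP K p ∨ CharZero K) →
      (∀ (G : Type v) (M : Type w) [Group G] [AddCommGroup M] [DistribMulAction G M],
        CongrAction p e G M → NoZD K G) ∧
      (∀ (N : Type x) [Group N], UTSep N → ∀ H : Subgroup (MulAut N),
        (∀ φ ∈ H, Triv (p ^ e) φ) → NoZD K H ∧ NoZD K (N ⋊[H.subtype] H)) ∧
      ∀ (α : Type x) (H : Subgroup (MulAut (FreeGroup α))),
        (∀ φ ∈ H, Triv (p ^ e) φ) →
        NoZD K H ∧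
          ∀ (G : Type y) [Group G] (π : H →* G), Function.Surjective π →
            (∀ φ : H, π φ = 1 ↔ ∃ c, (φ : MulAut (FreeGroup α)) = MulAut.conj c) →
            NoZD K G := by
  intro p e hp he K _ hK
  have : Fact p.Prime := ⟨hp⟩
  exact ⟨fun G M _ _ _ ⟨htf, hsep, hcong, hfaith⟩ =>
      Vale.Agent.P201.Congr.noZeroDivisors_of_congruence he htf hsep hcong hfaith K hK,
    fun N _ hN H hH => by
      have hS := Vale.Agent.P201.Congr.Holo.noZeroDivisors_holomorph he hN H hH K hK
      exact ⟨Function.Injective.noZeroDivisors
        (MonoidAlgebra.mapDomainRingHom K (SemidirectProduct.inr (φ := H.subtype)))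
        (MonoidAlgebra.mapDomain_injective SemidirectProduct.inr_injective) (map_zero _)
        (map_mul _), hS⟩,
    fun α H hH => ⟨Vale.Agent.P201.Congr.noZeroDivisors_freeGroup_aut he H hH K hK,
      fun G _ π hπ hker =>
        Vale.Agent.P201.Congr.noZeroDivisors_freeGroup_out he H hH π hπ hker K hK⟩⟩

end Vale.Agent.Results.P201.CongruenceAutomorphisms
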