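import Vale.Agent.P201.Special
import Vale.Agent.P201.Wreath

/-!
Reduction of the zero-divisor question for group algebras of torsion-free groups to square-zero
elements of prime-field group algebras of two-generated torsion-free groups.
-/

namespace Vale.Agent.Results.P201.PrimeFieldReduction

open Vale.Agent.P201

universe u v

theorem main (p : ℕ) (hp : p.Prime)
    (hF : ∀ (G : Type) [Group G], (∀ g : G, IsOfFinOrder g → g = 1) →
      (∃ a b : G, Subgroup.closure {a, b} = ⊤) →
      ∀ x : MonoidAlgebra (ZMod p) G, x * x = 0 → x = 0)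
    (K : Type u) [Field K] (hK : CharP K p ∨ CharZero K) (G : Type v) [Group G]
    (hG : ∀ g : G, IsOfFinOrder g → g = 1) : NoZeroDivisors (MonoidAlgebra K G) := by
  have : Fact p.Prime := ⟨hp⟩
  refine ⟨fun {a b} hab => ?_⟩
  by_contra hne
  rw [not_or] at hne
  have h := HasZD.primeField p hK (hasZD_of hG a b hne.1 hne.2 hab)
  obtain ⟨H, _, hH, hHc, x, hx, hxx⟩ := exists_sq_zero h
  obtain ⟨S, _, hS, hgen, e, he⟩ := exists_two_gen_embedding hH
  refine hx (MonoidAlgebra.mapDomain_injective (R := ZMod p) he ?_)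
  rw [MonoidAlgebra.mapDomain_zero]
  exact hF S hS hgen _ (by
    rw [← MonoidAlgebra.mapDomain_mul e, hxx, MonoidAlgebra.mapDomain_zero])

theorem forward
    (hQ : ∀ (K : Type u) [Field K] (G : Type v) [Group G],
      (∀ g : G, IsOfFinOrder g → g = 1) → NoZeroDivisors (MonoidAlgebra K G))
    (p : ℕ) (hp : p.Prime) (G : Type) [Group G] (hG : ∀ g : G, IsOfFinOrder g → g = 1)
    (x : MonoidAlgebra (ZMod p) G) (hx : x * x = 0) : x = 0 := by
  have : Fact p.Prime := ⟨hp⟩
  have := hQ (ULift.{u} (ZMod p)) (ULift.{v} G)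
    (TF.of_injective (MulEquiv.ulift : ULift.{v} G ≃* G).toMonoidHom
      MulEquiv.ulift.injective hG)
  let Φ : MonoidAlgebra (ZMod p) G ≃+* MonoidAlgebra (ULift.{u} (ZMod p)) (ULift.{v} G) :=
    (MonoidAlgebra.mapRingEquiv G ULift.ringEquiv.symm).trans
      (MonoidAlgebra.mapDomainRingEquiv _ MulEquiv.ulift.symm)
  apply Φ.injective
  rw [map_zero]
  exact mul_self_eq_zero.1 (by rw [← map_mul, hx, map_zero])

theorem result :
    (∀ p : ℕ, p.Prime →
      (∀ (G : Type) [Group G], (∀ g : G, IsOfFinOrder g → g = 1) →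
        (∃ a b : G, Subgroup.closure {a, b} = ⊤) →
        ∀ x : MonoidAlgebra (ZMod p) G, x * x = 0 → x = 0) →
      ∀ (K : Type u) [Field K], (CharP K p ∨ CharZero K) →
        ∀ (G : Type v) [Group G], (∀ g : G, IsOfFinOrder g → g = 1) →
          NoZeroDivisors (MonoidAlgebra K G)) ∧
    ((∀ (K : Type u) [Field K] (G : Type v) [Group G],
        (∀ g : G, IsOfFinOrder g → g = 1) → NoZeroDivisors (MonoidAlgebra K G)) ↔
      ∀ p : ℕ, p.Prime → ∀ (G : Type) [Group G], (∀ g : G, IsOfFinOrder g → g = 1) →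
        (∃ a b : G, Subgroup.closure {a, b} = ⊤) →
        ∀ x : MonoidAlgebra (ZMod p) G, x * x = 0 → x = 0) := by
  refine ⟨fun p hp hF K _ hK G _ hG => main p hp hF K hK G hG,
    fun hQ p hp G _ hG _ x hx => forward hQ p hp G hG x hx, fun hF K _ G _ hG => ?_⟩
  obtain ⟨q, hq⟩ := CharP.exists K
  rcases CharP.char_is_prime_or_zero K q with hqp | hq0
  · exact main q hqp (hF q hqp) K (Or.inl hq) G hG
  · subst hq0
    exact main 2 Nat.prime_two (hF 2 Nat.prime_two) K (Or.inr (CharP.charP_to_charZero K)) G hG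

end Vale.Agent.Results.P201.PrimeFieldReduction
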